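import Vale.Agent.P142.Bazilevic
import Vale.Agent.P142.Koebe
import Vale.Agent.P142.Corner.Integrable
import Vale.Agent.P142.Corner.Koebe

/-!
# Brennan's conjecture holds for Bazilevic functions and for corner maps
-/

namespace Vale.Agent.Results.P142.BazilevicBrennan

open Vale.Agent.P142 MeasureTheory

/-- For every corner map and for every Bazilevic function all powers in `(-2, 0]` of the modulus of
the derivative are area integrable; the Koebe function belongs to both classes. -/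
theorem result :
    (∀ f : ℂ → ℂ, IsCornerMap f → ∀ t : ℝ, -2 < t → t ≤ 0 →
      IntegrableOn (fun z => ‖deriv f z‖ ^ t) (Metric.ball (0 : ℂ) 1)) ∧
    IsCornerMap (fun z : ℂ => z / (1 - z) ^ 2) ∧
    (∀ (α : ℝ) (f : ℂ → ℂ), IsBazilevic α f → ∀ t : ℝ, -2 < t → t ≤ 0 →
      (∀ z ∈ Metric.ball (0 : ℂ) 1, deriv f z ≠ 0) ∧
        IntegrableOn (fun z => ‖deriv f z‖ ^ t) (Metric.ball (0 : ℂ) 1)) ∧
    ∀ α : ℝ, 0 < α → IsBazilevic α fun z : ℂ => z / (1 - z) ^ 2 :=
  ⟨fun _ hf _ ht ht0 => brennan_corner hf ht ht0, isCornerMap_koebe,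
    fun _ _ hf _ ht ht0 => (brennan_bazilevic hf ht ht0).symm, fun _ hα => isBazilevic_koebe hα⟩

end Vale.Agent.Results.P142.BazilevicBrennan
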