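import Vale.Agent.P142.Flux.Bundle
import Vale.Agent.P142.Flux.Certs.M118.Main
import Vale.Agent.P142.Flux.Certs.M0886.Main

/-!
An improved bound for the integral means spectrum at `-2` and for the range of Brennan.
-/

namespace Vale.Agent.Results.P142.SpectrumAndRange

open Complex Set Metric MeasureTheory Filter Topology Vale.Agent.P142.Flux

/-- For every univalent function on the disk the integral means spectrum at `-2` is at most
`59/50`, and the powers in `(-443/250, 0]` of the modulus of its derivative are area integrable;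
for every conformal bijection onto the disk the powers in `[2, 943/250)` are integrable. -/
theorem result :
    (∀ f : ℂ → ℂ, DifferentiableOn ℂ f (ball 0 1) → InjOn f (ball 0 1) →
      limsup (fun r : ℝ => ((Real.log ((2 * Real.pi)⁻¹ *
          ∫ x in (-Real.pi)..Real.pi, ‖deriv f ((r : ℂ) * exp (x * I))‖ ^ (-2 : ℝ)) /
        Real.log (1 / (1 - r)) : ℝ) : EReal)) (𝓝[<] 1) ≤ ((59 / 50 : ℝ) : EReal)) ∧
    (∀ f : ℂ → ℂ, DifferentiableOn ℂ f (ball 0 1) → InjOn f (ball 0 1) → ∀ t : ℝ,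
      -(443 / 250) < t → t ≤ 0 →
      (∀ z ∈ ball (0 : ℂ) 1, deriv f z ≠ 0) ∧
        IntegrableOn (fun z => ‖deriv f z‖ ^ t) (ball (0 : ℂ) 1)) ∧
    ∀ (W : Set ℂ) (φ : ℂ → ℂ), IsOpen W → DifferentiableOn ℂ φ W →
      BijOn φ W (ball (0 : ℂ) 1) → ∀ s : ℝ, 2 ≤ s → s < 943 / 250 →
      IntegrableOn (fun z => ‖deriv φ z‖ ^ s) W := by
  obtain ⟨P₁, Q₁, c₁, h₁⟩ := Certs.M118.cert
  obtain ⟨P₂, Q₂, c₂, h₂⟩ := Certs.M0886.cert
  norm_num at h₁ h₂
  have h := bundle (by norm_num) (by norm_num) h₁ h₂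
  norm_num at h ⊢
  exact h

end Vale.Agent.Results.P142.SpectrumAndRange
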